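import Vale.Agent.P181.O2.H726.CG
import Vale.Agent.P181.O2.H244.Lift

set_option autoImplicit false

/-!
# P181, O2, A4: the rank count
-/

open MvPolynomial

namespace Vale.Agent.P181.O2.H726

open Vale.Agent.P181.T4 (HW)
open Vale.Agent.P181.SZ (TI mem_TI)
open Vale.Agent.P181.SZR3 (colD colD_eq)
open Vale.Agent.P181.DG6.H887 (lsub)
open Vale.Agent.P181.TW.H312 (opL opL_nil opL_cons opL_zero)
open Vale.Agent.P181.TW.T5 (cen RR exists_section)
open Vale.Agent.P181.O2.H244 (PR mem_PR)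

/-- The literal of helper244. -/
def E3G : Prop := ∀ (c h m : ℕ) (mu : Fin m → ℕ), 10 * h ≤ c → 100 ≤ c →
  Module.finrank ℂ (TI c (∑ i, mu i) m mu) +
      Module.finrank ℂ (PR m (h + 1) (3 * h) Unit (fun _ => c + 1) ∅ (c + 1) mu) +
      Module.finrank ℂ (PR m (h + 1) (3 * h) Bool (fun b => if b then c else 2) {(true, false)}
        (c + 1) mu) ≤
    Module.finrank ℂ (TI (c + 1) (∑ i, mu i) m mu)

/-- The injectivity. -/
def InjBC : Prop := ∀ (c h m : ℕ) (mu : Fin m → ℕ), 10 * h ≤ c → 100 ≤ c →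
  ∀ (Q : MvPolynomial (Fin m × (Unit ⊕ Fin (c + 1))) ℂ)
    (G : MvPolynomial (Fin m × (Bool ⊕ Fin (c + 1))) ℂ),
  Q ∈ PR m (h + 1) (3 * h) Unit (fun _ => c + 1) ∅ (c + 1) mu →
  G ∈ PR m (h + 1) (3 * h) Bool (fun b => if b then c else 2) {(true, false)} (c + 1) mu →
  BQ () Q + CQ true false G = 0 → Q = 0 ∧ G = 0

section lin

variable {m n : ℕ} {σ : Type} [DecidableEq σ]

lemma opL_smul (z : σ) : ∀ (L : List σ) (c : ℂ) (f : MvPolynomial (Fin m × σ) ℂ),
    opL z L (c • f) = c • opL z L f := by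
  intro L
  induction L with
  | nil => intro c f; rfl
  | cons j L ih => intro c f; rw [opL_cons, Derivation.map_smul, ih, opL_cons]

/-- `opL` as a linear map. -/
noncomputable def opLl (z : σ) (L : List σ) :
    MvPolynomial (Fin m × σ) ℂ →ₗ[ℂ] MvPolynomial (Fin m × σ) ℂ where
  toFun := opL z L
  map_add' := opL_add' z L
  map_smul' := opL_smul z L
where
  opL_add' (z : σ) (L : List σ) : ∀ f g : MvPolynomial (Fin m × σ) ℂ,
    opL z L (f + g) = opL z L f + opL z L g := by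
    induction L with
    | nil => intro f g; rfl
    | cons j L ih => intro f g; rw [opL_cons, map_add, ih, opL_cons, opL_cons]

end lin

/-- `BQ` as a linear map. -/
noncomputable def BQl {m n : ℕ} {α : Type} [Fintype α] [DecidableEq α] (z : α) :
    MvPolynomial (Fin m × (α ⊕ Fin n)) ℂ →ₗ[ℂ] MvPolynomial (Fin m × Fin n) ℂ :=
  (lsub m (bq (cen n))).toLinearMap ∘ₗ opLl (Sum.inl z) ((List.finRange n).map Sum.inr)

/-- `CQ` as a linear map. -/
noncomputable def CQl {m n : ℕ} {α : Type} [Fintype α] [DecidableEq α] (z v : α) :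
    MvPolynomial (Fin m × (α ⊕ Fin n)) ℂ →ₗ[ℂ] MvPolynomial (Fin m × Fin n) ℂ :=
  (lsub m (bq (cen n))).toLinearMap ∘ₗ ∑ j : Fin n,
    opLl (Sum.inl z) (((List.finRange n).erase j).map Sum.inr) ∘ₗ (sv v j).toLinearMap

lemma BQl_apply {m n : ℕ} {α : Type} [Fintype α] [DecidableEq α] (z : α)
    (Q : MvPolynomial (Fin m × (α ⊕ Fin n)) ℂ) : BQl z Q = BQ z Q := rfl

lemma CQl_apply {m n : ℕ} {α : Type} [Fintype α] [DecidableEq α] (z v : α)
    (G : MvPolynomial (Fin m × (α ⊕ Fin n)) ℂ) : CQl z v G = CQ z v G := by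
  rw [CQl, LinearMap.comp_apply, LinearMap.sum_apply, CQ]
  rfl

/-- **The rank count.** -/
theorem e3g_of (hI : InjBC) : E3G := by
  intro c h m mu hc hc2
  have hM : 1 ≤ c := by omega
  let R : TI (c + 1) (∑ i, mu i) m mu →ₗ[ℂ] MvPolynomial (Fin m × Fin c) ℂ :=
    (lsub m (RR c)).toLinearMap ∘ₗ (TI (c + 1) (∑ i, mu i) m mu).subtype
  have h1 := LinearMap.finrank_range_add_finrank_ker R
  have h2 : Module.finrank ℂ (TI c (∑ i, mu i) m mu) ≤ Module.finrank ℂ (LinearMap.range R) := by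
    apply Submodule.finrank_mono
    intro f hf
    obtain ⟨F, hF, hF2⟩ := exists_section hM hf
    exact ⟨⟨F, hF⟩, hF2⟩
  set P1 := PR m (h + 1) (3 * h) Unit (fun _ => c + 1) ∅ (c + 1) mu with hP1
  set P2 := PR m (h + 1) (3 * h) Bool (fun b => if b then c else 2) {(true, false)} (c + 1) mu
    with hP2
  have hB : ∀ Q ∈ P1, BQ () Q ∈ TI (c + 1) (∑ i, mu i) m mu := by
    intro Q hQ
    obtain ⟨q1, q2, q3, q4, q5⟩ := mem_PR.1 hQ
    exact BQ_mem (by omega) () q1 q3
  have hC : ∀ G ∈ P2, CQ true false G ∈ TI (c + 1) (∑ i, mu i) m mu := by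
    intro G hG
    obtain ⟨q1, q2, q3, q4, q5⟩ := mem_PR.1 hG
    exact CQ_mem (by omega) true false q1 q3
  have hC0 : ∀ G ∈ P2, lsub m (RR c) (CQ true false G) = 0 := by
    intro G hG
    obtain ⟨q1, q2, q3, q4, q5⟩ := mem_PR.1 hG
    refine CQ_zero hM fun v hv => ?_
    have := (q2 v hv).1 false
    simp only [Bool.false_eq_true, if_false] at this
    omega
  let L0 : (P1 × P2) →ₗ[ℂ] MvPolynomial (Fin m × Fin (c + 1)) ℂ :=
    (BQl ()).comp (P1.subtype.comp (LinearMap.fst ℂ P1 P2)) +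
      (CQl true false).comp (P2.subtype.comp (LinearMap.snd ℂ P1 P2))
  have hL0 : ∀ x : P1 × P2, L0 x = BQ () x.1.1 + CQ true false x.2.1 := by
    intro x
    change BQl () x.1.1 + CQl true false x.2.1 = _
    rw [BQl_apply, CQl_apply]
  have hmem : ∀ x : P1 × P2, L0 x ∈ TI (c + 1) (∑ i, mu i) m mu := by
    intro x
    rw [hL0]
    exact add_mem (hB _ x.1.2) (hC _ x.2.2)
  let L : (P1 × P2) →ₗ[ℂ] LinearMap.ker R :=
    LinearMap.codRestrict (LinearMap.ker R)
      (LinearMap.codRestrict (TI (c + 1) (∑ i, mu i) m mu) L0 hmem) (by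
        intro x
        rw [LinearMap.mem_ker]
        change lsub m (RR c) (L0 x) = 0
        rw [hL0, map_add, BQ_zero hM, hC0 _ x.2.2, add_zero])
  have h3 : Module.finrank ℂ (P1 × P2) ≤ Module.finrank ℂ (LinearMap.ker R) := by
    refine LinearMap.finrank_le_finrank_of_injective (f := L) ?_
    refine (injective_iff_map_eq_zero L).2 fun x hx => ?_
    have hx1 : L0 x = 0 := congrArg (fun y => (y.1.1 : MvPolynomial (Fin m × Fin (c + 1)) ℂ)) hx
    rw [hL0] at hx1
    obtain ⟨hQ, hG⟩ := hI c h m mu hc hc2 x.1.1 x.2.1 x.1.2 x.2.2 hx1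
    exact Prod.ext (Subtype.ext hQ) (Subtype.ext hG)
  rw [Module.finrank_prod] at h3
  omega

end Vale.Agent.P181.O2.H726
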