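import Vale.Agent.P181.O2.H726.Peel

set_option autoImplicit false

/-!
# P181, O2, A4: the two families in the kernel of the restriction `q_last = 0`

Columns `α ⊕ Fin n`, `z v : α`. `BQ z Q = ∏_j (q_j · ∂_z) Q` and
`CQ z v G = ∑_j ∏_{i ≠ j} (q_i · ∂_z) G(v := q_j)`, in the centred points.
-/

open MvPolynomial

namespace Vale.Agent.P181.O2.H726

open Vale.Agent.P181.T4 (HW rowOp rowOp_apply mem_HW)
open Vale.Agent.P181.SZ (TI mem_TI)
open Vale.Agent.P181.SZR3 (colD colD_eq colD_X)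
open Vale.Agent.P181.DG6.H887 (lsub lsub_X lsub_mem_HW tr_lsub eval_lsub der_comm lsub_deg)
open Vale.Agent.P181.TW.H312 (opL opL_nil opL_cons opL_perm opL_append opL_zero)
open Vale.Agent.P181.TW.T5 (lsub_lsub cen sum_cen sum_cen_mul cen_perm eval_congr RR RR_last sum_RR
  opL_mem_HW rename_opL)

variable {m n : ℕ} {α : Type} [Fintype α] [DecidableEq α]

/-- The marked columns `↦ 0`, `q_j ↦ ∑ c, A j c q_c`. -/
def bq {α : Type} {s t : ℕ} (A : Fin s → Fin t → ℂ) : α ⊕ Fin s → Fin t → ℂ :=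
  Sum.elim (fun _ _ => 0) A

lemma bq_lsub {s t r : ℕ} (A : Fin s → Fin t → ℂ) (B : Fin t → Fin r → ℂ)
    (f : MvPolynomial (Fin m × (α ⊕ Fin s)) ℂ) :
    lsub m B (lsub m (bq A) f) = lsub m (bq fun j c => ∑ k, A j k * B k c) f := by
  rw [lsub_lsub]
  congr 2
  funext o c
  cases o <;> simp [bq]

lemma rename_lsub_bq (e : Equiv.Perm (Fin n)) (f : MvPolynomial (Fin m × (α ⊕ Fin n)) ℂ) :
    rename (fun p : Fin m × Fin n => (p.1, e p.2)) (lsub m (bq (cen n)) f) =
      lsub m (bq (cen n)) (rename (fun p : Fin m × (α ⊕ Fin n) => (p.1, Sum.map id e p.2)) f) := by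
  apply MvPolynomial.funext
  intro x
  rw [eval_rename, eval_lsub, eval_lsub, eval_rename]
  refine eval_congr _ fun p => ?_
  obtain ⟨i, o⟩ := p
  simp only [Function.comp_apply]
  cases o with
  | inl o => simp [bq]
  | inr j =>
    simp only [bq, Sum.map_inr, Sum.elim_inr]
    rw [← Equiv.sum_comp e fun c => cen n (e j) c * x (i, c)]
    exact Finset.sum_congr rfl fun c _ => by rw [cen_perm]

/-- `f` is killed if each of its monomials contains a column which is killed. -/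
lemma lsub_eq_zero {σ τ : Type} [Fintype σ] [Fintype τ] (A : σ → τ → ℂ) (c : σ)
    (hc : ∀ d, A c d = 0)
    {f : MvPolynomial (Fin m × σ) ℂ} (hf : LB c 1 f) : lsub m A f = 0 := by
  classical
  rw [lsub, aeval_def, eval₂_eq']
  refine Finset.sum_eq_zero fun v hv => ?_
  have h1 := hf v (mem_support_iff.1 hv)
  obtain ⟨i, -, hi⟩ : ∃ i ∈ Finset.univ, v (i, c) ≠ 0 := by
    by_contra hcc
    push Not at hcc
    rw [Finset.sum_eq_zero hcc] at h1
    omega
  rw [Finset.prod_eq_zero (Finset.mem_univ (i, c)), mul_zero]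
  have h2 : (∑ c' : τ, C (A ((i, c) : Fin m × σ).2 c') * X (((i, c) : Fin m × σ).1, c') :
      MvPolynomial (Fin m × τ) ℂ) = 0 := by
    refine Finset.sum_eq_zero fun d _ => ?_
    rw [hc d, C_0, zero_mul]
  rw [h2, zero_pow hi]

/-- The substitution `v := q_j`. -/
noncomputable def sv (v : α) (j : Fin n) :
    MvPolynomial (Fin m × (α ⊕ Fin n)) ℂ →ₐ[ℂ] MvPolynomial (Fin m × (α ⊕ Fin n)) ℂ :=
  rename fun p : Fin m × (α ⊕ Fin n) => (p.1, if p.2 = Sum.inl v then Sum.inr j else p.2)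

lemma sv_mem_HW (v : α) (j : Fin n) {mu : Fin m → ℕ} {f : MvPolynomial (Fin m × (α ⊕ Fin n)) ℂ}
    (hf : f ∈ HW m (α ⊕ Fin n) mu) : sv v j f ∈ HW m (α ⊕ Fin n) mu := by
  have h : (sv v j : MvPolynomial (Fin m × (α ⊕ Fin n)) ℂ →ₐ[ℂ] _) =
      lsub m (fun o o' : α ⊕ Fin n => if (if o = Sum.inl v then Sum.inr j else o) = o' then
        (1 : ℂ) else 0) := by
    apply MvPolynomial.algHom_ext
    rintro ⟨i, o⟩
    rw [sv, rename_X, lsub_X, Finset.sum_eq_single (if o = Sum.inl v then Sum.inr j else o)]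
    · simp
    · intro c _ hc
      rw [if_neg (Ne.symm hc), C_0, zero_mul]
    · intro h'
      exact absurd (Finset.mem_univ _) h'
  rw [h]
  exact lsub_mem_HW _ hf

lemma rename_sv (e : Equiv.Perm (Fin n)) (v : α) (j : Fin n)
    (f : MvPolynomial (Fin m × (α ⊕ Fin n)) ℂ) :
    rename (fun p : Fin m × (α ⊕ Fin n) => (p.1, Sum.map id e p.2)) (sv v j f) =
      sv v (e j) (rename (fun p : Fin m × (α ⊕ Fin n) => (p.1, Sum.map id e p.2)) f) := by
  rw [sv, sv, rename_rename, rename_rename]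
  congr 2
  funext p
  obtain ⟨i, o⟩ := p
  simp only [Function.comp_apply]
  cases o with
  | inl o =>
    by_cases h : o = v <;> simp [h]
  | inr k => simp

lemma LB.sv {v : α} {j : Fin n} {N : ℕ} {f : MvPolynomial (Fin m × (α ⊕ Fin n)) ℂ}
    (hf : LB (Sum.inl v) N f) : LB (Sum.inr j) N (sv v j f) := by
  intro u hu
  obtain ⟨w, hw, hw2⟩ := coeff_rename_ne_zero _ _ _ hu
  refine (hf w hw2).trans (Finset.sum_le_sum fun i _ => ?_)
  rw [← hw]
  have h1 : Finsupp.single (i, Sum.inl v) (w (i, Sum.inl v)) ≤ w := by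
    rw [Finsupp.single_le_iff]
  obtain ⟨r, hr⟩ := exists_add_of_le h1
  conv_rhs => rw [hr]
  rw [Finsupp.mapDomain_add, Finsupp.mapDomain_single, Finsupp.add_apply]
  simp

/-- The family `B`. -/
noncomputable def BQ (z : α) (Q : MvPolynomial (Fin m × (α ⊕ Fin n)) ℂ) :
    MvPolynomial (Fin m × Fin n) ℂ :=
  lsub m (bq (cen n)) (opL (Sum.inl z) ((List.finRange n).map Sum.inr) Q)

/-- The family `C`. -/
noncomputable def CQ (z v : α) (G : MvPolynomial (Fin m × (α ⊕ Fin n)) ℂ) :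
    MvPolynomial (Fin m × Fin n) ℂ :=
  lsub m (bq (cen n)) (∑ j : Fin n,
    opL (Sum.inl z) (((List.finRange n).erase j).map Sum.inr) (sv v j G))

/-- Membership in `TI` of the centred polynomials. -/
lemma mem_TI_bq (hn : 1 ≤ n) {mu : Fin m → ℕ} {f : MvPolynomial (Fin m × (α ⊕ Fin n)) ℂ}
    (hf : f ∈ HW m (α ⊕ Fin n) mu)
    (hs : ∀ e : Equiv.Perm (Fin n),
      rename (fun p : Fin m × (α ⊕ Fin n) => (p.1, Sum.map id e p.2)) f = f) :
    lsub m (bq (cen n)) f ∈ TI n (∑ i, mu i) m mu := by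
  have hHW : lsub m (bq (cen n)) f ∈ HW m (Fin n) mu := lsub_mem_HW _ hf
  refine mem_TI.2 ⟨hHW, fun e => by rw [rename_lsub_bq, hs e], fun v hv j => ?_, fun i => ?_⟩
  · rw [← Finset.sum_congr rfl fun i _ => hHW.1 v hv i, Finset.sum_comm]
    exact Finset.single_le_sum (f := fun j => ∑ i, v (i, j)) (fun _ _ => Nat.zero_le _)
      (Finset.mem_univ j)
  · refine tr_lsub (bq (cen n)) (id : Fin n → Fin n) (fun o => ?_) i _
    cases o with
    | inl o => simp [bq]
    | inr j => exact sum_cen hn j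

lemma rename_map_inj (e : Equiv.Perm (Fin n)) (z : α) (x : α ⊕ Fin n)
    (hx : Sum.map id e x = Sum.map id e (Sum.inl z)) : x = Sum.inl z := by
  cases x with
  | inl x => simpa using hx
  | inr x => simp at hx

lemma map_finRange (e : Equiv.Perm (Fin n)) : ((List.finRange n).map e).Perm (List.finRange n) :=
  e.map_finRange_perm

theorem BQ_mem (hn : 1 ≤ n) (z : α) {mu : Fin m → ℕ}
    {Q : MvPolynomial (Fin m × (α ⊕ Fin n)) ℂ} (hQ : Q ∈ HW m (α ⊕ Fin n) mu)
    (hs : ∀ e : Equiv.Perm (Fin n),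
      rename (fun p : Fin m × (α ⊕ Fin n) => (p.1, Sum.map id e p.2)) Q = Q) :
    BQ z Q ∈ TI n (∑ i, mu i) m mu := by
  refine mem_TI_bq hn (opL_mem_HW _ _ hQ) fun e => ?_
  have hr := rename_opL (Sum.inl z : α ⊕ Fin n) (Sum.map id e) (rename_map_inj e z)
    ((List.finRange n).map Sum.inr) Q
  rw [hs e] at hr
  rw [hr]
  have hl : ((List.finRange n).map Sum.inr).map (Sum.map id e) =
      ((List.finRange n).map e).map (Sum.inr : Fin n → α ⊕ Fin n) := by
    rw [List.map_map, List.map_map]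
    rfl
  rw [hl]
  exact opL_perm ((map_finRange e).map _) (by simp) Q

theorem CQ_mem (hn : 1 ≤ n) (z v : α) {mu : Fin m → ℕ}
    {G : MvPolynomial (Fin m × (α ⊕ Fin n)) ℂ} (hG : G ∈ HW m (α ⊕ Fin n) mu)
    (hs : ∀ e : Equiv.Perm (Fin n),
      rename (fun p : Fin m × (α ⊕ Fin n) => (p.1, Sum.map id e p.2)) G = G) :
    CQ z v G ∈ TI n (∑ i, mu i) m mu := by
  refine mem_TI_bq hn (Submodule.sum_mem _ fun j _ => opL_mem_HW _ _ (sv_mem_HW v j hG))
    fun e => ?_
  rw [map_sum, ← Equiv.sum_comp e fun j : Fin n =>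
    opL (Sum.inl z) (((List.finRange n).erase j).map Sum.inr) (sv v j G)]
  refine Finset.sum_congr rfl fun j _ => ?_
  have hr := rename_opL (Sum.inl z : α ⊕ Fin n) (Sum.map id e) (rename_map_inj e z)
    (((List.finRange n).erase j).map Sum.inr) (sv v j G)
  rw [hr, rename_sv, hs e]
  have hl : (((List.finRange n).erase j).map Sum.inr).map (Sum.map id e) =
      (((List.finRange n).erase j).map e).map (Sum.inr : Fin n → α ⊕ Fin n) := by
    rw [List.map_map, List.map_map]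
    rfl
  rw [hl]
  refine opL_perm (List.Perm.map _ ?_) (by simp) _
  rw [List.map_erase e.injective]
  exact (map_finRange e).erase (e j)

variable {M : ℕ}

lemma bqA_last (hM : 1 ≤ M) (c : Fin M) :
    (fun (j : Fin (M + 1)) (c : Fin M) => ∑ k, cen (M + 1) j k * RR M k c) (Fin.last M) c = 0 := by
  change ∑ k, cen (M + 1) (Fin.last M) k * RR M k c = 0
  rw [sum_cen_mul (Fin.last M) fun k => RR M k c, sum_RR hM, RR_last, Pi.zero_apply, mul_zero,
    sub_zero]

/-- A polarization towards a killed column is killed. -/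
lemma lsub_colD_zero {σ τ : Type} [Fintype σ] [DecidableEq σ] [Fintype τ] (A : σ → τ → ℂ)
    (c z : σ) (hc : ∀ d, A c d = 0) (f : MvPolynomial (Fin m × σ) ℂ) :
    lsub m A (colD c z f) = 0 := by
  rw [colD_eq, map_sum]
  refine Finset.sum_eq_zero fun i _ => ?_
  rw [map_mul, lsub_X]
  have h : ∑ d, C (A ((i, c) : Fin m × σ).2 d) *
      (X (((i, c) : Fin m × σ).1, d) : MvPolynomial (Fin m × τ) ℂ) = 0 :=
    Finset.sum_eq_zero fun d _ => by rw [hc d, C_0, zero_mul]
  rw [h, zero_mul]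

lemma lsub_opL_zero {σ τ : Type} [Fintype σ] [DecidableEq σ] [Fintype τ] (A : σ → τ → ℂ)
    (c z : σ) (hc : ∀ d, A c d = 0) (L : List σ) (hL : c ∈ L) (hz : z ∉ L)
    (f : MvPolynomial (Fin m × σ) ℂ) : lsub m A (opL z L f) = 0 := by
  have hp : L.Perm (L.erase c ++ [c]) :=
    (List.perm_cons_erase hL).trans (List.perm_append_singleton c (L.erase c)).symm
  rw [opL_perm hp hz, opL_append, opL_cons, opL_nil]
  exact lsub_colD_zero A c z hc _

theorem BQ_zero (hM : 1 ≤ M) (z : α) (Q : MvPolynomial (Fin m × (α ⊕ Fin (M + 1))) ℂ) :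
    lsub m (RR M) (BQ z Q) = 0 := by
  rw [BQ, bq_lsub]
  exact lsub_opL_zero _ (Sum.inr (Fin.last M)) (Sum.inl z) (fun d => bqA_last hM d) _
    (by simp) (by simp) Q

theorem CQ_zero (hM : 1 ≤ M) {z v : α}
    {G : MvPolynomial (Fin m × (α ⊕ Fin (M + 1))) ℂ} (hG : LB (Sum.inl v) 1 G) :
    lsub m (RR M) (CQ z v G) = 0 := by
  rw [CQ, bq_lsub, map_sum]
  refine Finset.sum_eq_zero fun j _ => ?_
  by_cases hj : j = Fin.last M
  · subst hj
    refine lsub_eq_zero _ (Sum.inr (Fin.last M)) (fun d => bqA_last hM d) ?_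
    exact LB.opL_ne (by simp) _ hG.sv
  · refine lsub_opL_zero _ (Sum.inr (Fin.last M)) (Sum.inl z) (fun d => bqA_last hM d) _
      ?_ (by simp) _
    simp only [List.mem_map, Sum.inr.injEq, exists_eq_right]
    rw [List.mem_erase_of_ne (Ne.symm hj)]
    exact List.mem_finRange _

end Vale.Agent.P181.O2.H726
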