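import Mathlib

set_option autoImplicit false

/-!
# P181, O2: the Vandermonde pull-out
-/

open MvPolynomial

namespace Vale.Agent.P181.O2.H726

/-- Vandermonde: distinct `x j` in a domain. -/
lemma vdm {R ι : Type*} [CommRing R] [IsDomain R] [Fintype ι] (x g : ι → R)
    (hx : Function.Injective x)
    (h : ∀ r, r < Fintype.card ι → ∑ j, x j ^ r * g j = 0) : ∀ j, g j = 0 := by
  classical
  let e := Fintype.equivFin ι
  have hdet : (Matrix.vandermonde fun k => x (e.symm k)).det ≠ 0 :=
    Matrix.det_vandermonde_ne_zero_iff.2 (hx.comp e.symm.injective)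
  have hv : Matrix.vecMul (fun k => g (e.symm k)) (Matrix.vandermonde fun k => x (e.symm k)) = 0 := by
    funext r
    rw [Matrix.vecMul, dotProduct, Pi.zero_apply]
    have h1 := h r.1 r.2
    rw [← e.symm.sum_comp] at h1
    rw [← h1]
    exact Finset.sum_congr rfl fun k _ => by rw [Matrix.vandermonde_apply, mul_comm]
  have h0 := Matrix.eq_zero_of_vecMul_eq_zero hdet hv
  intro j
  have := congrFun h0 (e j)
  simpa using this

variable {m : ℕ} {σ : Type} [Fintype σ] [DecidableEq σ]

/-- `E_r = ∑ j, x_j ^ r ∂/∂(tail entry r1 of column j)`, `x_j` = entry `r0`. -/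
noncomputable def er (r0 r1 : Fin m) (r : ℕ) (Φ : MvPolynomial (Fin m × σ) ℂ) :
    MvPolynomial (Fin m × σ) ℂ :=
  ∑ j, X (r0, j) ^ r * pderiv (r1, j) Φ

lemma pderiv_comm' {τ : Type*} (p q : τ) (f : MvPolynomial τ ℂ) :
    pderiv p (pderiv q f) = pderiv q (pderiv p f) := by
  classical
  have h : ⁅(pderiv p : Derivation ℂ (MvPolynomial τ ℂ) (MvPolynomial τ ℂ)),
      (pderiv q : Derivation ℂ (MvPolynomial τ ℂ) (MvPolynomial τ ℂ))⁆ = 0 := by
    apply derivation_ext
    intro k
    rw [Derivation.commutator_apply, Derivation.zero_apply, pderiv_X, pderiv_X]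
    by_cases h1 : q = k <;> by_cases h2 : p = k <;> simp [Pi.single_apply, h1, h2]
  have h1 := congrArg (fun D => D f) h
  simp only [Derivation.commutator_apply, Derivation.zero_apply] at h1
  exact sub_eq_zero.1 h1

lemma pderiv_er {r0 r1 : Fin m} (hr : r0 ≠ r1) (r : ℕ) (l : σ) (Φ : MvPolynomial (Fin m × σ) ℂ) :
    pderiv (r1, l) (er r0 r1 r Φ) = er r0 r1 r (pderiv (r1, l) Φ) := by
  rw [er, er, map_sum]
  refine Finset.sum_congr rfl fun j _ => ?_
  have h0 : pderiv (r1, l) ((X (r0, j) : MvPolynomial (Fin m × σ) ℂ) ^ r) = 0 := by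
    rw [Derivation.leibniz_pow, pderiv_X_of_ne (fun h => hr (congrArg Prod.fst h)), smul_zero,
      smul_zero]
  rw [Derivation.leibniz, h0, smul_zero, add_zero, smul_eq_mul, pderiv_comm']

/-- If `∂ Φ = 0` for all entries of row `r1`, then row `r1` does not occur. -/
lemma row_zero {r1 : Fin m} {Φ : MvPolynomial (Fin m × σ) ℂ}
    (h : ∀ j, pderiv (r1, j) Φ = 0) (v : Fin m × σ →₀ ℕ) (hv : coeff v Φ ≠ 0) (j : σ) :
    v (r1, j) = 0 := by
  by_contra hc
  have h1 := congrArg (coeff (v - Finsupp.single (r1, j) 1)) (h j)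
  rw [coeff_zero] at h1
  have hle : Finsupp.single (r1, j) 1 ≤ v := by
    rw [Finsupp.single_le_iff]
    omega
  have h2 : coeff (v - Finsupp.single (r1, j) 1) (pderiv (r1, j) Φ) = coeff v Φ * v (r1, j) := by
    rw [MvPolynomial.coeff_pderiv, tsub_add_cancel_of_le hle]
    congr 1
    rw [Finsupp.tsub_apply, Finsupp.single_eq_same]
    push_cast [Nat.one_le_iff_ne_zero.2 hc]
    ring
  rw [h2] at h1
  rcases mul_eq_zero.1 h1 with h3 | h3
  · exact hv h3
  · exact hc (by exact_mod_cast h3)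

/-- **The pull-out.** -/
theorem pull {r0 r1 : Fin m} (hr : r0 ≠ r1) {Φ : MvPolynomial (Fin m × σ) ℂ}
    (h2 : ∀ v, coeff v Φ ≠ 0 → 2 ≤ ∑ j, v (r1, j))
    (h : ∀ r s, r < Fintype.card σ → s < Fintype.card σ → er r0 r1 r (er r0 r1 s Φ) = 0) :
    Φ = 0 := by
  have hx : Function.Injective fun j : σ => (X (r0, j) : MvPolynomial (Fin m × σ) ℂ) := by
    intro a b hab
    have := X_injective hab
    exact congrArg Prod.snd this
  have h3 : ∀ s, s < Fintype.card σ → ∀ j, pderiv (r1, j) (er r0 r1 s Φ) = 0 := fun s hs =>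
    vdm _ _ hx fun r hr' => h r s hr' hs
  have h4 : ∀ j l, pderiv (r1, l) (pderiv (r1, j) Φ) = 0 := by
    intro j
    refine vdm _ _ hx fun s hs => ?_
    have := h3 s hs j
    rw [pderiv_er hr] at this
    exact this
  by_contra hΦ
  obtain ⟨v, hv⟩ := MvPolynomial.ne_zero_iff.1 hΦ
  have hs := h2 v hv
  obtain ⟨j, -, hj⟩ : ∃ j ∈ Finset.univ, v (r1, j) ≠ 0 := by
    by_contra hc
    push_neg at hc
    rw [Finset.sum_eq_zero hc] at hs
    omega
  -- the monomial `v - e_j` of `∂_j Φ`
  have hle : Finsupp.single (r1, j) 1 ≤ v := by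
    rw [Finsupp.single_le_iff]
    omega
  have h5 : coeff (v - Finsupp.single (r1, j) 1) (pderiv (r1, j) Φ) ≠ 0 := by
    rw [MvPolynomial.coeff_pderiv, tsub_add_cancel_of_le hle]
    refine mul_ne_zero hv ?_
    norm_cast
  have h6 := row_zero (h4 j) _ h5
  have h7 : ∑ l, v (r1, l) = 1 := by
    have h8 : ∀ l, v (r1, l) = (Finsupp.single (r1, j) 1 : Fin m × σ →₀ ℕ) (r1, l) := by
      intro l
      have := h6 l
      rw [Finsupp.tsub_apply] at this
      have h9 := hle (r1, l)
      omega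
    rw [Finset.sum_congr rfl fun l _ => h8 l]
    rw [Finset.sum_eq_single j]
    · simp
    · intro l _ hl
      rw [Finsupp.single_apply, if_neg]
      intro h
      exact hl (congrArg Prod.snd h).symm
    · simp
  omega

/-- **The marked letter.** -/
theorem mark {r0 : Fin m} (o : σ) {P : MvPolynomial (Fin m × σ) ℂ}
    (h : ∀ r, r < Fintype.card σ → ∑ l : σ,
      rename (fun p : Fin m × σ => (p.1, Equiv.swap o l p.2)) (X (r0, o) ^ r * P) = 0) :
    P = 0 := by
  have hx : Function.Injective fun j : σ => (X (r0, j) : MvPolynomial (Fin m × σ) ℂ) := by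
    intro a b hab
    exact congrArg Prod.snd (X_injective hab)
  have h1 := vdm _ (fun l => rename (fun p : Fin m × σ => (p.1, Equiv.swap o l p.2)) P) hx
    fun r hr => by
      rw [← h r hr]
      refine Finset.sum_congr rfl fun l _ => ?_
      rw [map_mul, map_pow, rename_X, Equiv.swap_apply_left]
  have h2 := h1 o
  have h3 : (fun p : Fin m × σ => (p.1, Equiv.swap o o p.2)) = id := by
    funext p
    simp
  rw [h3, rename_id_apply] at h2
  exact h2

end Vale.Agent.P181.O2.H726
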