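import Vale.Agent.P181.O2.H352.Bridge
import Vale.Agent.P181.O2.H137.K2
import Vale.Agent.P181.O2.H726.E3G
import Vale.Agent.P181.O2.H244.A4

set_option autoImplicit false

/-!
# P181, O2: A4
-/

open MvPolynomial

namespace Vale.Agent.P181.O2.H726

open Vale.Agent.P181.SZR3 (colD colD_eq colD_X exists_coeff_colD sum_single_col)
open Vale.Agent.P181.SZR4 (vm vm_injective coeff_ren)
open Vale.Agent.P181.DG6.H887 (lsub lsub_X der_comm eval_lsub)
open Vale.Agent.P181.TW.H312 (opL opL_nil opL_cons)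
open Vale.Agent.P181.TW.T5 (cen EE eval_congr)
open Vale.Agent.P181.O2.H352 (ph ph_BQ ph_CQ ph_zero ph_inj ph_castSucc ph_last pol2
  exS exists_Mv Mv Mv_inl Mv_deg Mv_occ svA sv_eq deg_opL)
open Vale.Agent.P181.O2.H137 (En dE SM BT Rel Few K2 PR_opL)
open Vale.Agent.P181.O2.H244 (PR mem_PR occ)

variable {m : ℕ}

/-- The marked column `()` as `true`. -/
def uf (n : ℕ) : Unit ⊕ Fin n → Bool ⊕ Fin n := Sum.map (fun _ => true) id

lemma uf_inj (n : ℕ) : Function.Injective (uf n) := by
  rintro (x | x) (y | y) h <;> simp [uf] at h ⊢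
  exact h

lemma ren_colD {σ τ : Type} [DecidableEq σ] [DecidableEq τ] [Fintype σ] [Fintype τ] {g : σ → τ}
    (hg : Function.Injective g) (j c : σ) (f : MvPolynomial (Fin m × σ) ℂ) :
    rename (vm m g) (colD j c f) = colD (g j) (g c) (rename (vm m g) f) := by
  symm
  refine der_comm (rename (vm m g)) (colD j c) (colD (g j) (g c)) (fun p => ?_) f
  obtain ⟨i, k⟩ := p
  rw [rename_X, colD_X, colD_X]
  by_cases h : k = c
  · subst h
    simp [vm]
  · have h' : (vm m g (i, k)).2 ≠ g c := fun h2 => h (hg h2)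
    rw [if_neg h, if_neg h', map_zero]

lemma ren_opL {σ τ : Type} [DecidableEq σ] [DecidableEq τ] [Fintype σ] [Fintype τ] {g : σ → τ}
    (hg : Function.Injective g) (z : σ) : ∀ (l : List σ) (f : MvPolynomial (Fin m × σ) ℂ),
    rename (vm m g) (opL z l f) = opL (g z) (l.map g) (rename (vm m g) f) := by
  intro l
  induction l with
  | nil => intro f; rfl
  | cons j l ih => intro f; rw [opL_cons, ih, ren_colD hg, List.map_cons, opL_cons]

lemma bq_ren {n : ℕ} (f : MvPolynomial (Fin m × (Unit ⊕ Fin n)) ℂ) :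
    lsub m (bq (α := Bool) (cen n)) (rename (vm m (uf n)) f) =
      lsub m (bq (α := Unit) (cen n)) f := by
  have h : (lsub m (bq (α := Bool) (cen n))).comp (rename (vm m (uf n))) =
      (lsub m (bq (α := Unit) (cen n)) : MvPolynomial (Fin m × (Unit ⊕ Fin n)) ℂ →ₐ[ℂ] _) := by
    apply MvPolynomial.algHom_ext
    rintro ⟨i, o⟩
    rw [AlgHom.comp_apply, rename_X, lsub_X, lsub_X]
    cases o <;> rfl
  exact DFunLike.congr_fun h f

/-- The form `BQ` with the marked column `true`. -/
lemma BQ_ren {n : ℕ} (Q : MvPolynomial (Fin m × (Unit ⊕ Fin n)) ℂ) :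
    BQ true (rename (vm m (uf n)) Q) = BQ () Q := by
  rw [BQ, BQ, ← bq_ren, ren_opL (uf_inj n), List.map_map]
  rfl

section free

variable {M : ℕ}

lemma ph_inl {α : Type} [Fintype α] [DecidableEq α] (i : Fin m) (c : α) :
    ph m α M (X (i, Sum.inl c)) = X (i, Sum.inl c) := by
  rw [ph, lsub_X, Fintype.sum_sum_type]
  simp [exS]

lemma ph_inr {α : Type} [Fintype α] [DecidableEq α] (i : Fin m) (j : Fin (M + 1)) :
    ph m α M (X (i, (Sum.inr j : α ⊕ Fin (M + 1)))) =
      ∑ c : Fin M, C (EE M j c) * X (i, Sum.inr c) := by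
  rw [ph, lsub_X, Fintype.sum_sum_type]
  simp [exS]

lemma ph_colD_inl {α : Type} [Fintype α] [DecidableEq α] (a b : α)
    (f : MvPolynomial (Fin m × (α ⊕ Fin (M + 1))) ℂ) :
    ph m α M (colD (Sum.inl a) (Sum.inl b) f) = colD (Sum.inl a) (Sum.inl b) (ph m α M f) := by
  symm
  refine der_comm (ph m α M) (colD (Sum.inl a) (Sum.inl b)) (colD (Sum.inl a) (Sum.inl b))
    (fun p => ?_) f
  obtain ⟨i, o⟩ := p
  cases o with
  | inl c =>
    rw [ph_inl, colD_X, colD_X]
    by_cases h : c = b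
    · subst h
      rw [if_pos rfl, if_pos rfl, ph_inl]
    · rw [if_neg (by simpa using h), if_neg (by simpa using h), map_zero]
  | inr j =>
    rw [ph_inr, colD_X, if_neg (by simp), map_zero, map_sum]
    refine Finset.sum_eq_zero fun c _ => ?_
    rw [← smul_eq_C_mul, Derivation.map_smul, colD_X, if_neg (by simp), smul_zero]

lemma Mv_sv {α : Type} [DecidableEq α] {n : ℕ} {v : α} {j : Fin n}
    {w' w : Fin m × (α ⊕ Fin n) →₀ ℕ} (h : Mv (svA v j) w' w) (a : α) :
    ∑ i, w (i, Sum.inl a) = if a = v then 0 else ∑ i, w' (i, Sum.inl a) := by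
  induction h with
  | zero => simp
  | add w' w i k c _ hA ih =>
    have hc : (if k = Sum.inl v then Sum.inr j else k) = c := by
      by_contra h1
      exact hA (if_neg h1)
    simp only [Finsupp.add_apply, Finset.sum_add_distrib, sum_single_col, ih]
    rw [← hc]
    by_cases h2 : k = Sum.inl v
    · rw [if_pos h2]
      by_cases h3 : a = v
      · rw [if_pos h3, if_pos h3, if_neg (by simp)]
      · rw [if_neg h3, if_neg h3, if_neg (by simp), h2, if_neg]
        simpa using Ne.symm h3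
    · rw [if_neg h2]
      by_cases h3 : a = v
      · rw [if_pos h3, if_pos h3, if_neg (by rw [h3]; exact h2)]
      · rw [if_neg h3, if_neg h3]

/-- The uncentred form. -/
noncomputable def FF (Q G : MvPolynomial (Fin m × (Bool ⊕ Fin (M + 1))) ℂ) :
    MvPolynomial (Fin m × (Bool ⊕ Fin (M + 1))) ℂ :=
  opL (Sum.inl true) ((List.finRange (M + 1)).map Sum.inr) Q +
    ∑ j, opL (Sum.inl true) (((List.finRange (M + 1)).erase j).map Sum.inr) (sv false j G)

lemma inr_nodup {n : ℕ} {l : List (Fin n)} (h : l.Nodup) :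
    (l.map (Sum.inr : Fin n → Bool ⊕ Fin n)).Nodup := h.map Sum.inr_injective

lemma FF_free {Q G : MvPolynomial (Fin m × (Bool ⊕ Fin (M + 1))) ℂ}
    (hQ : ∀ v, coeff v Q ≠ 0 → ∀ b : Bool, ∑ i, v (i, Sum.inl b) = if b then M + 1 else 0)
    (hG : ∀ v, coeff v G ≠ 0 → ∀ b : Bool, ∑ i, v (i, Sum.inl b) = if b then M else 2) :
    ∀ v, coeff v (FF Q G) ≠ 0 → ∀ a, ∑ i, v (i, Sum.inl a) = 0 := by
  have key : ∀ (l : List (Fin (M + 1))) (f : MvPolynomial (Fin m × (Bool ⊕ Fin (M + 1))) ℂ),
      l.Nodup → (∀ v, coeff v f ≠ 0 → ∀ b : Bool, ∑ i, v (i, Sum.inl b) =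
        if b then l.length else 0) →
      ∀ v, coeff v (opL (Sum.inl true) (l.map Sum.inr) f) ≠ 0 → ∀ a, ∑ i, v (i, Sum.inl a) = 0 := by
    intro l f hl hf v hv a
    obtain ⟨w, hw, h1, h2⟩ := deg_opL (z := (Sum.inl true : Bool ⊕ Fin (M + 1))) (l.map Sum.inr)
      (by simp) (inr_nodup hl) f v hv
    have h3 := hf w hw
    rw [List.length_map] at h1
    cases a with
    | true =>
      have h4 := h3 true
      rw [if_pos rfl] at h4
      omega
    | false =>
      have h4 := h3 false
      have h5 := h2 (Sum.inl false) (by simp)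
      rw [if_neg (by simp)] at h5
      simp only [Bool.false_eq_true, if_false] at h4
      omega
  intro v hv a
  rw [FF, coeff_add] at hv
  by_cases h1 : coeff v (opL (Sum.inl true) ((List.finRange (M + 1)).map Sum.inr) Q) = 0
  · rw [h1, zero_add, coeff_sum] at hv
    obtain ⟨j, _, hj⟩ := Finset.exists_ne_zero_of_sum_ne_zero hv
    refine key ((List.finRange (M + 1)).erase j) (sv false j G)
      ((List.nodup_finRange _).erase _) (fun w hw b => ?_) v hj a
    rw [sv_eq] at hw
    obtain ⟨w', hw', h2⟩ := exists_Mv _ _ w hw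
    rw [Mv_sv h2 b]
    have h3 := hG w' hw' b
    rw [List.length_erase_of_mem (List.mem_finRange j), List.length_finRange]
    cases b with
    | true => simpa using h3
    | false => simp
  · refine key (List.finRange (M + 1)) Q (List.nodup_finRange _) (fun w hw b => ?_) v h1 a
    rw [hQ w hw b, List.length_finRange]

lemma SM_eq (b : Bool) (f : MvPolynomial (Fin m × (Bool ⊕ Fin M)) ℂ) :
    (SM (Sum.inl b) ((List.finRange M).map Sum.inr) : En m (Bool ⊕ Fin M)) f =
      H352.SZ b f := by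
  rw [SM, List.map_map, H352.SZ, ← Fin.sum_univ_def, LinearMap.sum_apply]
  rfl

lemma SZ_smul (b : Bool) (r : ℂ) (f : MvPolynomial (Fin m × (Bool ⊕ Fin M)) ℂ) :
    H352.SZ b (r • f) = r • H352.SZ b f := by
  rw [H352.SZ, H352.SZ, Finset.smul_sum]
  exact Finset.sum_congr rfl fun c _ => Derivation.map_smul _ _ _

lemma two_smul' {τ : Type} (f : MvPolynomial τ ℂ) : 2 * f = (2 : ℂ) • f := by
  rw [smul_eq_C_mul]
  rfl

lemma map_erase' {α β : Type} [DecidableEq α] [DecidableEq β] {f : α → β}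
    (hf : Function.Injective f) (l : List α) (a : α) :
    (l.map f).erase (f a) = (l.erase a).map f := (List.map_erase hf l).symm

/-- **The relation of the free forms.** -/
lemma rel_of {Q G : MvPolynomial (Fin m × (Bool ⊕ Fin (M + 1))) ℂ}
    (hQ : ∀ v, coeff v Q ≠ 0 → ∀ b : Bool, ∑ i, v (i, Sum.inl b) = if b then M + 1 else 0)
    (hG : ∀ v, coeff v G ≠ 0 → ∀ b : Bool, ∑ i, v (i, Sum.inl b) = if b then M else 2)
    (h : BQ true Q + CQ true false G = 0) :
    H137.Rel (Sum.inl true) (Sum.inl false) ((List.finRange M).map Sum.inr)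
      ((2 : ℂ) • ph m Bool M Q) (ph m Bool M G) := by
  have h1 : ph m Bool M (FF Q G) = 0 := by
    refine ph_zero _ (FF_free hQ hG) ?_
    rw [FF, map_add]
    exact h
  have hG2 : ∀ u, coeff u G ≠ 0 → ∑ i, u (i, (Sum.inl false : Bool ⊕ Fin (M + 1))) = 2 := by
    intro u hu
    have := hG u hu false
    simpa using this
  have hV : ∀ j : Fin M, colD (Sum.inr j) (Sum.inl false)
      (colD (Sum.inr j) (Sum.inl false) (ph m Bool M G)) =
        (2 : ℂ) • ph m Bool M (sv false j.castSucc G) := by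
    intro j
    rw [← ph_castSucc, ← ph_castSucc, pol2 _ _ G hG2, two_smul', map_smul]
  have hL : H352.SZ false (H352.SZ false (ph m Bool M G)) =
      (2 : ℂ) • ph m Bool M (sv false (Fin.last M) G) := by
    have e1 := ph_last false (colD (Sum.inr (Fin.last M)) (Sum.inl false) G)
    rw [pol2 _ _ G hG2, two_smul', map_smul, ph_last false G] at e1
    rw [e1, ← neg_one_smul ℂ (H352.SZ false (ph m Bool M G)), SZ_smul, neg_one_smul, neg_neg]
  rw [FF, map_add, ph_BQ, ph_CQ] at h1
  have hz : (Sum.inl true : Bool ⊕ Fin M) ∉ (List.finRange M).map Sum.inr := by simp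
  unfold H137.Rel
  have e1 : (H137.PR (Sum.inl true) ((List.finRange M).map Sum.inr) *
      SM (Sum.inl true) ((List.finRange M).map Sum.inr) : En m (Bool ⊕ Fin M))
        ((2 : ℂ) • ph m Bool M Q) = (2 : ℂ) • opL (Sum.inl true) ((List.finRange M).map Sum.inr)
          (H352.SZ true (ph m Bool M Q)) := by
    rw [Module.End.mul_apply, SM_eq, PR_opL _ hz, SZ_smul, opL_smul]
  have e2 : (H137.PR (Sum.inl true) ((List.finRange M).map Sum.inr) *
      (SM (Sum.inl false) ((List.finRange M).map Sum.inr) *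
        SM (Sum.inl false) ((List.finRange M).map Sum.inr)) : En m (Bool ⊕ Fin M))
        (ph m Bool M G) = (2 : ℂ) • opL (Sum.inl true) ((List.finRange M).map Sum.inr)
          (ph m Bool M (sv false (Fin.last M) G)) := by
    rw [Module.End.mul_apply, Module.End.mul_apply, SM_eq, SM_eq, PR_opL _ hz, hL, opL_smul]
  have e3 : (BT (Sum.inl true) (Sum.inl false) ((List.finRange M).map Sum.inr)
      ((List.finRange M).map Sum.inr) : En m (Bool ⊕ Fin M)) (ph m Bool M G) =
        (2 : ℂ) • ∑ j : Fin M, opL (Sum.inl true) (((List.finRange M).erase j).map Sum.inr)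
          (H352.SZ true (ph m Bool M (sv false j.castSucc G))) := by
    rw [BT, List.map_map, ← Fin.sum_univ_def, LinearMap.sum_apply, Finset.smul_sum]
    refine Finset.sum_congr rfl fun j _ => ?_
    simp only [Function.comp_apply]
    rw [Module.End.mul_apply, Module.End.mul_apply, Module.End.mul_apply]
    change (H137.PR _ _ : En m (Bool ⊕ Fin M)) ((SM _ _ : En m (Bool ⊕ Fin M))
      (colD (Sum.inr j) (Sum.inl false) (colD (Sum.inr j) (Sum.inl false) (ph m Bool M G)))) = _
    rw [hV, SM_eq, map_erase' Sum.inr_injective, PR_opL _ (by simp), SZ_smul, opL_smul]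
  rw [e1, e2, e3, ← smul_add, ← smul_sub]
  refine (congrArg (fun x => (2 : ℂ) • x) ?_).trans (smul_zero _)
  rw [← neg_zero, ← h1]
  abel

/-- Few points, bounded degrees. -/
lemma few_of {x d0 h : ℕ} {P : MvPolynomial (Fin m × (Bool ⊕ Fin (M + 1))) ℂ}
    (hP : ∀ v, coeff v P ≠ 0 → (∀ b : Bool, ∑ i, v (i, Sum.inl b) = if b then x else d0) ∧
      (∀ j : Fin (M + 1), ∑ i, v (i, Sum.inr j) < h + 1) ∧ (occ v).card ≤ 3 * h) (r : ℂ) :
    Few (Sum.inl true) ((List.finRange M).map Sum.inr) x (4 * h + 1) (2 * h)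
      (r • ph m Bool M P) := by
  classical
  intro u hu
  have hu' : coeff u (ph m Bool M P) ≠ 0 := by
    intro h0
    rw [coeff_smul, h0, smul_zero] at hu
    exact hu rfl
  obtain ⟨w, hw, h1⟩ := exists_Mv _ P u hu'
  obtain ⟨q1, q2, q3⟩ := hP w hw
  refine ⟨?_, fun j hj => ?_, ?_⟩
  · rw [Mv_inl h1, q1 true, if_pos rfl]
  · obtain ⟨b, -, rfl⟩ := List.mem_map.1 hj
    have h2 := Mv_deg h1 b
    have h3 := q2 b.castSucc
    have h4 := q2 (Fin.last M)
    omega
  · obtain ⟨T, hT, hT2⟩ := Mv_occ h1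
    set U : Finset (Fin M) := Finset.univ.filter fun b => b.castSucc ∈ occ w with hU
    have hUc : U.card ≤ (occ w).card := by
      refine Finset.card_le_card_of_injOn Fin.castSucc (fun b hb => ?_)
        (fun a _ b _ hab => Fin.castSucc_injective M hab)
      rw [hU, Finset.coe_filter] at hb
      exact hb.2
    refine ⟨(T ∪ U).image Sum.inr, ?_, fun j hj hjT i => ?_⟩
    · have h2 := Finset.card_image_le (s := T ∪ U) (f := (Sum.inr : Fin M → Bool ⊕ Fin M))
      have h3 := Finset.card_union_le T U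
      have h4 := q2 (Fin.last M)
      omega
    · obtain ⟨b, -, rfl⟩ := List.mem_map.1 hj
      by_contra hne
      apply hjT
      rw [Finset.mem_image]
      refine ⟨b, ?_, rfl⟩
      rw [Finset.mem_union]
      rcases hT2 b ⟨i, hne⟩ with h2 | h2
      · exact Or.inl h2
      · right
        rw [hU, Finset.mem_filter]
        refine ⟨Finset.mem_univ _, ?_⟩
        rw [occ, Finset.mem_filter]
        exact ⟨Finset.mem_univ _, h2⟩

end free

/-- **The injectivity.** -/
theorem injBC : InjBC := by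
  intro c h m mu hc hc2 Q G hQ hG h0
  obtain ⟨-, q2, -, q4, -⟩ := mem_PR.1 hQ
  obtain ⟨-, g2, -, g4, g5⟩ := mem_PR.1 hG
  set Q' := rename (vm m (uf (c + 1))) Q with hQ'
  have hq : ∀ v, coeff v Q' ≠ 0 → (∀ b : Bool, ∑ i, v (i, Sum.inl b) = if b then c + 1 else 0) ∧
      (∀ j : Fin (c + 1), ∑ i, v (i, Sum.inr j) < h + 1) ∧ (occ v).card ≤ 3 * h := by
    intro v hv
    obtain ⟨u, hu, hu1, hu2⟩ := coeff_ren (uf_inj (c + 1)) hv
    obtain ⟨r1, r2, r3⟩ := q2 u hu
    have e1 : ∀ i j, v (i, Sum.inr j) = u (i, Sum.inr j) := fun i j => hu1 i (Sum.inr j)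
    refine ⟨fun b => ?_, fun j => ?_, ?_⟩
    · cases b with
      | true =>
        rw [if_pos rfl]
        exact (Finset.sum_congr rfl fun i _ => hu1 i (Sum.inl ())).trans (r1 ())
      | false =>
        rw [if_neg (by simp)]
        refine Finset.sum_eq_zero fun i _ => hu2 i _ ?_
        rintro ⟨x | x, hx⟩ <;> simp [uf] at hx
    · rw [Finset.sum_congr rfl fun i _ => e1 i j]
      exact r2 j
    · have e2 : occ v = occ u := by
        unfold occ
        exact Finset.filter_congr fun j _ => by simp only [e1]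
      rw [e2]
      exact r3
  have hg : ∀ v, coeff v G ≠ 0 → (∀ b : Bool, ∑ i, v (i, Sum.inl b) = if b then c else 2) ∧
      (∀ j : Fin (c + 1), ∑ i, v (i, Sum.inr j) < h + 1) ∧ (occ v).card ≤ 3 * h := g2
  have hrel := rel_of (Q := Q') (G := G) (fun v hv => (hq v hv).1) (fun v hv => (hg v hv).1)
    (by rw [hQ', BQ_ren]; exact h0)
  have hfG := few_of hg 1
  rw [one_smul] at hfG
  have hcol : colD (Sum.inl true) (Sum.inl false) (ph m Bool c G) = 0 := by
    rw [← ph_colD_inl]
    have h1 := g5 (true, false) rfl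
    rw [colD_eq, h1, map_zero]
  have hlen : ((List.finRange c).map (Sum.inr : Fin c → Bool ⊕ Fin c)).length = c := by simp
  obtain ⟨k1, k2⟩ := K2 (z := (Sum.inl true : Bool ⊕ Fin c)) (v := Sum.inl false)
    (l := (List.finRange c).map Sum.inr) (by simp) (inr_nodup (List.nodup_finRange _)) (by simp)
    (by simp) (B := 4 * h + 1) (D := 2 * h) (by omega) (by rw [hlen]; omega)
    (by rw [hlen]; exact few_of hq 2) (by rw [hlen]; exact hfG)
    (fun u hu => by
      obtain ⟨w, hw, h1⟩ := exists_Mv _ G u hu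
      rw [Mv_inl h1, (hg w hw).1 false]
      simp) hcol hrel
  have hG0 : G = 0 := ph_inj G g4 k2
  have hQ0 : Q' = 0 := by
    refine ph_inj Q' (fun i => ?_) ((smul_eq_zero.1 k1).resolve_left two_ne_zero)
    have h1 : ∀ j : Fin (c + 1), pderiv (i, (Sum.inr j : Bool ⊕ Fin (c + 1))) Q' =
        rename (vm m (uf (c + 1))) (pderiv (i, Sum.inr j) Q) := fun j =>
      pderiv_rename (vm_injective (m := m) (uf_inj (c + 1))) (i, Sum.inr j) Q
    rw [Finset.sum_congr rfl fun j _ => h1 j, ← map_sum, q4 i, map_zero]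
  refine ⟨?_, hG0⟩
  exact rename_injective _ (vm_injective (m := m) (uf_inj (c + 1))) (by rw [map_zero]; exact hQ0)

/-- **The rank count.** -/
theorem e3g : E3G := e3g_of injBC

/-- **(A4)** -/
theorem a4 : A4 := H244.a4_of e3g

end Vale.Agent.P181.O2.H726
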