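import Vale.Agent.P181.TW.T5.Fin

set_option autoImplicit false

/-!
# P181, O2, A4: the peel

`TL z L g hl h = ∏_{j ∈ L} P_j (hl - S_L g) - ∑_{j ∈ L} ∏_{i ∈ L, i ≠ j} P_i (S_L (h j))`,
`P_j = q_j · ∂_z`, `S_L = ∑_{j ∈ L} P_j`. If it vanishes and `h j` has degree at least `2` in the
column `j`, then the columns may be set to zero one after the other.
-/

open MvPolynomial

namespace Vale.Agent.P181.O2.H726

open Vale.Agent.P181.SZR3 (colD colD_eq colD_X exists_coeff_colD sum_single_col)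
open Vale.Agent.P181.DG6.H887 (der_comm)
open Vale.Agent.P181.TW.H312 (opL opL_nil opL_cons opL_perm opL_zero colD_comm)
open Vale.Agent.P181.TW.T5 (coeff_kill')

variable {m : ℕ} {σ : Type} [Fintype σ] [DecidableEq σ]

/-- The column `c` is set to zero. -/
noncomputable def kc (m : ℕ) {σ : Type} [DecidableEq σ] (c : σ) :
    MvPolynomial (Fin m × σ) ℂ →ₐ[ℂ] MvPolynomial (Fin m × σ) ℂ :=
  aeval fun p : Fin m × σ => if p.2 = c then (0 : MvPolynomial (Fin m × σ) ℂ) else X p

omit [Fintype σ] in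
lemma kc_X (c : σ) (p : Fin m × σ) :
    kc m c (X p) = if p.2 = c then (0 : MvPolynomial (Fin m × σ) ℂ) else X p := by
  rw [kc, aeval_X]

omit [Fintype σ] in
lemma coeff_kc (c : σ) (f : MvPolynomial (Fin m × σ) ℂ) (v : Fin m × σ →₀ ℕ)
    (h : coeff v (kc m c f) ≠ 0) : coeff v f ≠ 0 ∧ ∀ i, v (i, c) = 0 := by
  classical
  rw [kc, coeff_kill' (fun p : Fin m × σ => p.2 = c)] at h
  split_ifs at h with h1
  · exact ⟨h, fun i => h1 (i, c) rfl⟩
  · exact absurd rfl h

omit [Fintype σ] in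
lemma coeff_kc' (c : σ) (f : MvPolynomial (Fin m × σ) ℂ) (v : Fin m × σ →₀ ℕ)
    (h : ∀ i, v (i, c) = 0) : coeff v (kc m c f) = coeff v f := by
  classical
  rw [kc, coeff_kill' (fun p : Fin m × σ => p.2 = c), if_pos]
  rintro ⟨i, j⟩ hj
  have hj' : j = c := hj
  rw [hj']
  exact h i

/-- Setting a column to zero commutes with the polarizations of the other columns. -/
lemma kc_colD {c j z : σ} (hj : j ≠ c) (hz : z ≠ c) (f : MvPolynomial (Fin m × σ) ℂ) :
    kc m c (colD j z f) = colD j z (kc m c f) := by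
  symm
  refine (der_comm (kc m c) (colD j z) (colD j z) (fun p => ?_) f)
  obtain ⟨i, k⟩ := p
  rw [colD_X, kc_X]
  by_cases hk : k = z
  · subst hk
    simp [hz, hj, kc_X, colD_X]
  · by_cases hc : k = c
    · simp [hk, hc, Ne.symm hz]
    · simp [hk, hc, colD_X]

lemma kc_colD_self {c z : σ} (f : MvPolynomial (Fin m × σ) ℂ) :
    kc m c (colD c z f) = 0 := by
  rw [colD_eq, map_sum]
  refine Finset.sum_eq_zero fun i _ => ?_
  rw [map_mul, kc_X, if_pos rfl, zero_mul]

lemma kc_opL {c z : σ} (hz : z ≠ c) : ∀ (L : List σ), c ∉ L → ∀ f : MvPolynomial (Fin m × σ) ℂ,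
    kc m c (opL z L f) = opL z L (kc m c f) := by
  intro L
  induction L with
  | nil => intro _ f; rfl
  | cons j L ih =>
    intro hc f
    have hj : j ≠ c := fun h => hc (by simp [h])
    rw [opL_cons, ih (fun h => hc (List.mem_cons_of_mem _ h)), kc_colD hj hz, opL_cons]

/-- `S_L`. -/
noncomputable def SL (z : σ) (L : List σ) (f : MvPolynomial (Fin m × σ) ℂ) :
    MvPolynomial (Fin m × σ) ℂ := (L.map fun j => colD j z f).sum

omit [Fintype σ] in
@[simp] lemma SL_nil (z : σ) (f : MvPolynomial (Fin m × σ) ℂ) : SL z [] f = 0 := rfl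

omit [Fintype σ] in
@[simp] lemma SL_cons (z x : σ) (L : List σ) (f : MvPolynomial (Fin m × σ) ℂ) :
    SL z (x :: L) f = colD x z f + SL z L f := by
  simp [SL]

lemma kc_SL {c z : σ} (hz : z ≠ c) : ∀ (L : List σ), c ∉ L → ∀ f : MvPolynomial (Fin m × σ) ℂ,
    kc m c (SL z L f) = SL z L (kc m c f) := by
  intro L
  induction L with
  | nil => intro _ f; simp
  | cons j L ih =>
    intro hc f
    have hj : j ≠ c := fun h => hc (by simp [h])
    rw [SL_cons, map_add, kc_colD hj hz, ih (fun h => hc (List.mem_cons_of_mem _ h)), SL_cons]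

/-- The sum `T`. -/
noncomputable def TL (z : σ) (L : List σ) (g hl : MvPolynomial (Fin m × σ) ℂ)
    (h : σ → MvPolynomial (Fin m × σ) ℂ) : MvPolynomial (Fin m × σ) ℂ :=
  opL z L (hl - SL z L g) - (L.map fun j => opL z (L.erase j) (SL z L (h j))).sum

omit [Fintype σ] in
lemma opL_colD {z x : σ} (hz : x ≠ z) : ∀ (L : List σ), z ∉ L →
    ∀ f : MvPolynomial (Fin m × σ) ℂ, opL z L (colD x z f) = colD x z (opL z L f) := by
  intro L
  induction L with
  | nil => intro _ f; rfl
  | cons j L ih =>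
    intro hL f
    have hj : j ≠ z := fun h => hL (by simp [h])
    rw [opL_cons, opL_cons, colD_comm hj hz, ih (fun h => hL (List.mem_cons_of_mem _ h))]

omit [Fintype σ] in
lemma opL_add (z : σ) : ∀ (L : List σ) (f g : MvPolynomial (Fin m × σ) ℂ),
    opL z L (f + g) = opL z L f + opL z L g := by
  intro L
  induction L with
  | nil => intro f g; rfl
  | cons j L ih => intro f g; rw [opL_cons, map_add, ih, opL_cons, opL_cons]

omit [Fintype σ] in
lemma opL_neg (z : σ) : ∀ (L : List σ) (f : MvPolynomial (Fin m × σ) ℂ),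
    opL z L (-f) = -opL z L f := by
  intro L
  induction L with
  | nil => intro f; rfl
  | cons j L ih => intro f; rw [opL_cons, map_neg, ih, opL_cons]

omit [Fintype σ] in
lemma opL_sub (z : σ) (L : List σ) (f g : MvPolynomial (Fin m × σ) ℂ) :
    opL z L (f - g) = opL z L f - opL z L g := by
  rw [sub_eq_add_neg, opL_add, opL_neg, ← sub_eq_add_neg]

/-- Degree in the column `c` at least `n`. -/
def LB (c : σ) (n : ℕ) (f : MvPolynomial (Fin m × σ) ℂ) : Prop :=
  ∀ v, coeff v f ≠ 0 → n ≤ ∑ i, v (i, c)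

omit [Fintype σ] [DecidableEq σ] in
lemma LB_zero' (c : σ) (n : ℕ) : LB c n (0 : MvPolynomial (Fin m × σ) ℂ) :=
  fun v hv => absurd (coeff_zero v) hv

omit [Fintype σ] [DecidableEq σ] in
lemma LB.add {c : σ} {n : ℕ} {f g : MvPolynomial (Fin m × σ) ℂ} (hf : LB c n f) (hg : LB c n g) :
    LB c n (f + g) := by
  intro v hv
  rw [coeff_add] at hv
  by_cases h : coeff v f = 0
  · rw [h, zero_add] at hv
    exact hg v hv
  · exact hf v h

omit [Fintype σ] [DecidableEq σ] in
lemma LB.neg {c : σ} {n : ℕ} {f : MvPolynomial (Fin m × σ) ℂ} (hf : LB c n f) : LB c n (-f) := by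
  intro v hv
  rw [coeff_neg] at hv
  exact hf v fun h => hv (by rw [h, neg_zero])

omit [Fintype σ] [DecidableEq σ] in
lemma LB.sub {c : σ} {n : ℕ} {f g : MvPolynomial (Fin m × σ) ℂ} (hf : LB c n f) (hg : LB c n g) :
    LB c n (f - g) := by
  rw [sub_eq_add_neg]
  exact hf.add hg.neg

omit [Fintype σ] [DecidableEq σ] in
lemma LB.mono {c : σ} {n n' : ℕ} (h : n' ≤ n) {f : MvPolynomial (Fin m × σ) ℂ} (hf : LB c n f) :
    LB c n' f := fun v hv => h.trans (hf v hv)

omit [Fintype σ] [DecidableEq σ] in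
lemma LB_list {c : σ} {n : ℕ} {ι : Type} (l : List ι) (F : ι → MvPolynomial (Fin m × σ) ℂ)
    (h : ∀ j ∈ l, LB c n (F j)) : LB c n (l.map F).sum := by
  induction l with
  | nil => exact LB_zero' c n
  | cons j l ih =>
    rw [List.map_cons, List.sum_cons]
    exact (h j (by simp)).add (ih fun i hi => h i (List.mem_cons_of_mem _ hi))

lemma LB.colD_z {z j : σ} (hj : j ≠ z) {n : ℕ} {f : MvPolynomial (Fin m × σ) ℂ}
    (hf : LB z (n + 1) f) : LB z n (colD j z f) := by
  intro v hv
  obtain ⟨i, w, rfl, hw⟩ := exists_coeff_colD _ _ f v hv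
  have h1 := hf _ hw
  simp only [Finsupp.add_apply, Finset.sum_add_distrib, sum_single_col, if_true, if_neg hj] at h1 ⊢
  omega

lemma LB.colD_ne {z j c : σ} (hc : c ≠ z) {n : ℕ} {f : MvPolynomial (Fin m × σ) ℂ}
    (hf : LB c n f) : LB c n (colD j z f) := by
  intro v hv
  obtain ⟨i, w, rfl, hw⟩ := exists_coeff_colD _ _ f v hv
  have h1 := hf _ hw
  simp only [Finsupp.add_apply, Finset.sum_add_distrib, sum_single_col, if_neg (Ne.symm hc)] at h1 ⊢
  omega

lemma LB.opL_z {z : σ} : ∀ (L : List σ), z ∉ L → ∀ {n : ℕ} {f : MvPolynomial (Fin m × σ) ℂ},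
    LB z (n + L.length) f → LB z n (opL z L f) := by
  intro L
  induction L with
  | nil => intro _ n f hf; exact hf
  | cons j L ih =>
    intro hL n f hf
    have hj : j ≠ z := fun h => hL (by simp [h])
    rw [opL_cons]
    exact ih (fun h => hL (List.mem_cons_of_mem _ h)) (LB.colD_z hj (by
      rw [List.length_cons] at hf
      exact hf))

lemma LB.opL_ne {z c : σ} (hc : c ≠ z) : ∀ (L : List σ), ∀ {n : ℕ}
    {f : MvPolynomial (Fin m × σ) ℂ}, LB c n f → LB c n (opL z L f) := by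
  intro L
  induction L with
  | nil => intro n f hf; exact hf
  | cons j L ih =>
    intro n f hf
    rw [opL_cons]
    exact ih (LB.colD_ne hc hf)

lemma LB.SL_z {z : σ} (L : List σ) (hL : z ∉ L) {n : ℕ} {f : MvPolynomial (Fin m × σ) ℂ}
    (hf : LB z (n + 1) f) : LB z n (SL z L f) :=
  LB_list L _ fun j hj => LB.colD_z (fun h : j = z => hL (h ▸ hj)) hf

lemma LB.SL_ne {z c : σ} (hc : c ≠ z) (L : List σ) {n : ℕ} {f : MvPolynomial (Fin m × σ) ℂ}
    (hf : LB c n f) : LB c n (SL z L f) :=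
  LB_list L _ fun _ _ => LB.colD_ne hc hf

omit [Fintype σ] in
lemma LB.kc {c x : σ} {n : ℕ} {f : MvPolynomial (Fin m × σ) ℂ} (hf : LB c n f) :
    LB c n (kc m x f) := fun v hv => hf v (coeff_kc x f v hv).1

/-- The part linear in the column `x`. -/
lemma peel1 {x z : σ} (hx : x ≠ z) {A B : MvPolynomial (Fin m × σ) ℂ}
    (h0 : colD x z A + B = 0) (hB : LB x 2 B) (hA : LB z 1 A) : kc m x A = 0 := by
  classical
  apply MvPolynomial.ext
  intro v
  rw [coeff_zero]
  by_contra hv
  obtain ⟨hv1, hv2⟩ := coeff_kc x A v hv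
  have h1 := hA v hv1
  obtain ⟨i0, -, hi0⟩ : ∃ i ∈ Finset.univ, v (i, z) ≠ 0 := by
    by_contra hc
    push Not at hc
    rw [Finset.sum_eq_zero hc] at h1
    omega
  have hle : Finsupp.single (i0, z) 1 ≤ v := by
    rw [Finsupp.single_le_iff]
    omega
  set w := v - Finsupp.single (i0, z) 1 with hw
  have hvw : w + Finsupp.single (i0, z) 1 = v := tsub_add_cancel_of_le hle
  have hwx : ∀ i, w (i, x) = 0 := by
    intro i
    rw [hw, Finsupp.tsub_apply, hv2 i, Nat.zero_sub]
  have h2 := congrArg (coeff (w + Finsupp.single (i0, x) 1)) h0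
  rw [coeff_zero, coeff_add] at h2
  have h3 : coeff (w + Finsupp.single (i0, x) 1) B = 0 := by
    by_contra h4
    have h5 := hB _ h4
    simp only [Finsupp.add_apply, Finset.sum_add_distrib, sum_single_col, if_true, hwx,
      Finset.sum_const_zero, zero_add] at h5
    omega
  rw [h3, add_zero, colD_eq, coeff_sum, Finset.sum_eq_single i0] at h2
  · rw [add_comm w, coeff_X_mul, MvPolynomial.coeff_pderiv, hvw] at h2
    rcases mul_eq_zero.1 h2 with h6 | h6
    · exact hv1 h6
    · have h7 : ((w (i0, z) + 1 : ℕ) : ℂ) = 0 := by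
        push_cast
        exact h6
      exact absurd (by exact_mod_cast h7) (Nat.succ_ne_zero (w (i0, z)))
  · intro i _ hi
    rw [coeff_X_mul', if_neg]
    rw [Finsupp.mem_support_iff, not_not, Finsupp.add_apply, hwx, zero_add,
      Finsupp.single_apply, if_neg]
    intro h
    exact hi (congrArg Prod.fst h).symm
  · intro h
    exact absurd (Finset.mem_univ _) h

/-- **One column.** -/
theorem peel_one {x z : σ} {L : List σ} (hz : z ∉ x :: L) (hx : x ∉ L) {N : ℕ}
    {g hl : MvPolynomial (Fin m × σ) ℂ} {h : σ → MvPolynomial (Fin m × σ) ℂ}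
    (hN : L.length + 1 ≤ N) (hg : LB z (N + 1) g) (hhl : LB z N hl) (hh : ∀ j, LB z N (h j))
    (h2 : LB x 2 (h x)) (h0 : TL z (x :: L) g hl h = 0) :
    TL z L (kc m x g) (kc m x hl) (fun j => kc m x (h j)) = 0 := by
  have hxz : x ≠ z := fun h => hz (by simp [h])
  have hzL : z ∉ L := fun h => hz (List.mem_cons_of_mem _ h)
  set A := opL z L (hl - SL z (x :: L) g) -
    (L.map fun j => opL z (L.erase j) (SL z (x :: L) (h j))).sum with hA
  set B := - opL z L (SL z (x :: L) (h x)) with hB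
  have hF : colD x z A + B = 0 := by
    rw [← h0, TL, List.map_cons, List.sum_cons, List.erase_cons_head, opL_cons,
      opL_colD hxz L hzL, hA, map_sub, hB, map_list_sum, List.map_map]
    have h3 : (L.map (⇑(colD x z : Derivation ℂ (MvPolynomial (Fin m × σ) ℂ) _) ∘ fun j =>
        opL z (L.erase j) (SL z (x :: L) (h j)))) =
        L.map fun j => opL z ((x :: L).erase j) (SL z (x :: L) (h j)) := by
      apply List.map_congr_left
      intro j hj
      have hjx : x ≠ j := fun h => hx (h ▸ hj)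
      rw [Function.comp_apply, List.erase_cons_tail (by simpa using hjx), opL_cons,
        opL_colD hxz _ fun h => hzL (List.mem_of_mem_erase h)]
    rw [h3]
    ring
  have hAz : LB z 1 A := by
    refine LB.sub (LB.opL_z L hzL (LB.sub (hhl.mono (by omega))
      (LB.SL_z _ hz (hg.mono (by omega))))) (LB_list L _ fun j hj => ?_)
    refine LB.opL_z _ (fun h => hzL (List.mem_of_mem_erase h)) (LB.SL_z _ hz ((hh j).mono ?_))
    have := List.length_erase_of_mem hj
    have := List.length_pos_of_mem hj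
    omega
  have hBx : LB x 2 B := (LB.opL_ne hxz L (LB.SL_ne hxz _ h2)).neg
  have h4 := peel1 hxz hF hBx hAz
  rw [← h4, hA, map_sub, map_list_sum, List.map_map, kc_opL (Ne.symm hxz) L hx, map_sub, SL_cons,
    map_add, kc_colD_self, zero_add, kc_SL (Ne.symm hxz) L hx, TL]
  congr 2
  apply List.map_congr_left
  intro j _
  rw [Function.comp_apply, kc_opL (Ne.symm hxz) _ (fun h => hx (List.mem_of_mem_erase h)), SL_cons,
    map_add, kc_colD_self, zero_add, kc_SL (Ne.symm hxz) L hx]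

/-- Several columns set to zero. -/
noncomputable def kcs (m : ℕ) {σ : Type} [DecidableEq σ] :
    List σ → MvPolynomial (Fin m × σ) ℂ → MvPolynomial (Fin m × σ) ℂ
  | [], f => f
  | x :: L, f => kcs m L (kc m x f)

/-- **The peel.** -/
theorem peelAll {z : σ} : ∀ (L₁ L₂ : List σ), z ∉ L₁ ++ L₂ → (L₁ ++ L₂).Nodup →
    ∀ {N : ℕ} {g hl : MvPolynomial (Fin m × σ) ℂ} {h : σ → MvPolynomial (Fin m × σ) ℂ},
    (L₁ ++ L₂).length ≤ N → LB z (N + 1) g → LB z N hl → (∀ j, LB z N (h j)) →
    (∀ j, LB j 2 (h j)) → TL z (L₁ ++ L₂) g hl h = 0 →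
    TL z L₂ (kcs m L₁ g) (kcs m L₁ hl) (fun j => kcs m L₁ (h j)) = 0 := by
  intro L₁
  induction L₁ with
  | nil =>
    intro L₂ _ _ N g hl h _ _ _ _ _ h0
    exact h0
  | cons x L₁ ih =>
    intro L₂ hz hnd N g hl h hN hg hhl hh h2 h0
    rw [List.cons_append] at hz hnd hN h0
    have h3 := peel_one hz (List.nodup_cons.1 hnd).1 (by
      rw [List.length_cons] at hN
      exact hN) hg hhl hh (h2 x) h0
    exact ih L₂ (fun h => hz (List.mem_cons_of_mem _ h)) (List.nodup_cons.1 hnd).2 (by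
      rw [List.length_cons] at hN
      omega) hg.kc hhl.kc (fun j => (hh j).kc) (fun j => (h2 j).kc) h3

end Vale.Agent.P181.O2.H726
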