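import Vale.Agent.P181.O2.H726.Peel
import Vale.Agent.P181.O2.H352.Defs

set_option autoImplicit false

/-!
# P181, O2, A4: `PeelStmt`
-/

open MvPolynomial

namespace Vale.Agent.P181.O2.H726

open Vale.Agent.P181.SZR3 (colD colD_eq colD_X)
open Vale.Agent.P181.DG6.H887 (lsub lsub_X lsub_deg)
open Vale.Agent.P181.TW.H312 (opL opL_nil opL_cons opL_perm opL_append opL_zero)
open Vale.Agent.P181.O2.H352 (QB RL DB PeelStmt kl)

variable {m : ℕ} {σ : Type} [Fintype σ] [DecidableEq σ]

lemma kl_eq_kc (k : σ) : (kl m {k} : MvPolynomial (Fin m × σ) ℂ →ₐ[ℂ] _) = kc m k := by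
  apply MvPolynomial.algHom_ext
  rintro ⟨i, o⟩
  rw [kl, lsub_X, kc_X, Finset.sum_eq_single o]
  · by_cases h : o = k <;> simp [h]
  · intro c _ hc
    rw [if_neg (fun h => hc h.1.symm), C_0, zero_mul]
  · intro h
    exact absurd (Finset.mem_univ _) h

lemma sv_X (v : σ) (w : σ → ℂ) (i : Fin m) (o : σ) :
    H352.sv m v w (X (i, o)) =
      if o = v then ∑ c, C (w c) * (X (i, c) : MvPolynomial (Fin m × σ) ℂ) else X (i, o) := by
  rw [H352.sv, lsub_X]
  by_cases h : o = v
  · simp [h]
  · rw [if_neg h, Finset.sum_eq_single o]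
    · simp [h]
    · intro c _ hc
      simp [h, Ne.symm hc]
    · intro h'
      exact absurd (Finset.mem_univ _) h'

lemma kc_sv {v k : σ} (hvk : v ≠ k) (w w' : σ → ℂ) (hw : ∀ c, c ≠ k → w c = w' c)
    (hw' : w' k = 0) (f : MvPolynomial (Fin m × σ) ℂ) :
    kc m k (H352.sv m v w f) = H352.sv m v w' (kc m k f) := by
  have h : (kc m k).comp (H352.sv m v w) = (H352.sv m v w').comp (kc m k) := by
    apply MvPolynomial.algHom_ext
    rintro ⟨i, o⟩
    rw [AlgHom.comp_apply, AlgHom.comp_apply, sv_X, kc_X]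
    by_cases h : o = v
    · subst h
      rw [if_pos rfl, if_neg hvk, sv_X, if_pos rfl, map_sum]
      refine Finset.sum_congr rfl fun c _ => ?_
      rw [map_mul, kc_X]
      have hC : kc m k (C (w c)) = C (w c) := (kc m k).commutes (w c)
      rw [hC]
      by_cases hc : c = k
      · subst hc
        simp [hw']
      · simp [hc, hw c hc]
    · rw [if_neg h, kc_X]
      by_cases hk : o = k
      · simp [hk]
      · simp only [if_neg hk]
        rw [sv_X, if_neg h]
  exact DFunLike.congr_fun h f

lemma opL_SL {z : σ} (L : List σ) (hL : z ∉ L) : ∀ (L' : List σ), z ∉ L' →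
    ∀ f : MvPolynomial (Fin m × σ) ℂ, opL z L (SL z L' f) = SL z L' (opL z L f) := by
  intro L'
  induction L' with
  | nil => intro _ f; rw [SL_nil, SL_nil, opL_zero]
  | cons j L' ih =>
    intro hL' f
    have hj : j ≠ z := fun h => hL' (by simp [h])
    rw [SL_cons, SL_cons, opL_add, opL_colD hj L hL, ih fun h => hL' (List.mem_cons_of_mem _ h)]

lemma QB_eq {z : σ} {l : List σ} (hl : l.Nodup) (f : MvPolynomial (Fin m × σ) ℂ) :
    QB z l f = SL z l f := by
  rw [QB, SL, List.sum_toFinset _ hl]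

/-- The two forms. -/
lemma RL_eq {z v : σ} {l : List σ} (hl : l.Nodup) (hz : z ∉ l)
    (Q G : MvPolynomial (Fin m × σ) ℂ) (h : σ → MvPolynomial (Fin m × σ) ℂ)
    (hh : ∀ j ∈ l, h j = H352.sv m v (fun c => if c = j then 1 else 0) G) :
    RL z v l Q G = - TL z l Q (H352.sv m v (fun c => if c ∈ l then 1 else 0) G) h := by
  rw [RL, TL, opL_sub, opL_SL l hz l hz, QB_eq hl, List.sum_toFinset _ hl]
  have h1 : (l.map fun j => QB z l (opL z (l.erase j)
      (H352.sv m v (fun c => if c = j then 1 else 0) G))) =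
      l.map fun j => opL z (l.erase j) (SL z l (h j)) := by
    apply List.map_congr_left
    intro j hj
    rw [QB_eq hl, opL_SL _ (fun h => hz (List.mem_of_mem_erase h)) l hz, hh j hj]
  rw [h1]
  ring

lemma sv_single (v j : σ) : (H352.sv m v (fun c => if c = j then 1 else 0) :
    MvPolynomial (Fin m × σ) ℂ →ₐ[ℂ] _) =
    rename fun p : Fin m × σ => (p.1, if p.2 = v then j else p.2) := by
  apply MvPolynomial.algHom_ext
  rintro ⟨i, o⟩
  rw [sv_X, rename_X]
  by_cases h : o = v
  · simp only [if_pos h]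
    rw [Finset.sum_eq_single j]
    · simp
    · intro c _ hc
      simp [hc]
    · intro h'
      exact absurd (Finset.mem_univ _) h'
  · simp [h]

lemma LB_sv_single {v j : σ} {N : ℕ} {f : MvPolynomial (Fin m × σ) ℂ} (hf : LB v N f) :
    LB j N (H352.sv m v (fun c => if c = j then 1 else 0) f) := by
  rw [sv_single]
  intro u hu
  obtain ⟨w, hw, hw2⟩ := coeff_rename_ne_zero _ _ _ hu
  refine (hf w hw2).trans (Finset.sum_le_sum fun i _ => ?_)
  rw [← hw]
  have h1 : Finsupp.single (i, v) (w (i, v)) ≤ w := by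
    rw [Finsupp.single_le_iff]
  obtain ⟨r, hr⟩ := exists_add_of_le h1
  conv_rhs => rw [hr]
  rw [Finsupp.mapDomain_add, Finsupp.mapDomain_single, Finsupp.add_apply]
  simp

lemma LB_sv_z {v z : σ} (hzv : z ≠ v) (w : σ → ℂ) (hw : w z = 0) {N : ℕ}
    {f : MvPolynomial (Fin m × σ) ℂ} (hf : ∀ u, coeff u f ≠ 0 → ∑ i, u (i, z) = N) :
    LB z N (H352.sv m v w f) := by
  intro u hu
  have h := lsub_deg (m := m) (fun j c : σ => if j = v then w c else if j = c then 1 else 0)
    (fun o => o = z) (fun o => o = z) (by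
      intro j c hjc
      by_cases hj : j = v
      · simp only [if_pos hj] at hjc
        constructor
        · intro hc
          exact absurd (hc ▸ hw) hjc
        · intro hj'
          exact absurd (hj'.symm.trans hj) hzv
      · simp only [if_neg hj] at hjc
        have : j = c := by
          by_contra h'
          exact hjc (if_neg h')
        rw [this]) (n := N) (f := f) (by
      intro u hu
      rw [Finset.sum_ite_eq' Finset.univ z, if_pos (Finset.mem_univ _)]
      exact hf u hu) u hu
  rw [Finset.sum_ite_eq' Finset.univ z, if_pos (Finset.mem_univ _)] at h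
  exact h.ge

/-- **`PeelStmt`.** -/
theorem peelStmt : PeelStmt := by
  intro m σ _ _ z v k l x x' D Q G hzv hnd hz hv hl hQ hG hx hlen h0
  have hkl : k ∉ l := (List.nodup_cons.1 hnd).1
  have hndl : l.Nodup := (List.nodup_cons.1 hnd).2
  have hzl : z ∉ l := fun h => hz (List.mem_cons_of_mem _ h)
  have hvk : v ≠ k := fun h => hv (by simp [h])
  have hvl : v ∉ l := fun h => hv (List.mem_cons_of_mem _ h)
  set h : σ → MvPolynomial (Fin m × σ) ℂ := fun j =>
    if j ∈ k :: l then H352.sv m v (fun c => if c = j then 1 else 0) G else 0 with hh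
  rw [RL_eq (v := v) hnd hz Q G h (fun j hj => by rw [hh]; simp only [if_pos hj])] at h0
  have h1 := peel_one (N := x') hz hkl (by omega) (g := Q) (fun u hu => by
    rw [(hQ u hu).1, hx]) (LB_sv_z hzv (fun c => if c ∈ k :: l then 1 else 0) (if_neg hz)
      fun u hu => (hG u hu).1) (h := h) (fun j => by
        rw [hh]
        by_cases hj : j ∈ k :: l
        · simp only [if_pos hj]
          refine LB_sv_z hzv _ (if_neg fun h' : z = j => hz (h'.symm ▸ hj)) fun u hu => (hG u hu).1
        · simp only [if_neg hj]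
          exact LB_zero' z x') (by
        rw [hh]
        simp only [if_pos (List.mem_cons_self ..)]
        exact LB_sv_single fun u hu => (hG u hu).2.1.ge) (neg_eq_zero.1 h0)
  rw [kl_eq_kc, RL_eq (v := v) hndl hzl (kc m k Q) (kc m k G) (fun j => kc m k (h j)) (by
    intro j hj
    have hjk : j ≠ k := fun h => hkl (h ▸ hj)
    have hj' : j ∈ k :: l := List.mem_cons_of_mem _ hj
    rw [hh]
    simp only [if_pos hj']
    exact kc_sv hvk _ _ (fun c _ => rfl) (if_neg (Ne.symm hjk)) G)]
  rw [← kc_sv hvk (fun c => if c ∈ k :: l then 1 else 0) (fun c => if c ∈ l then 1 else 0)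
    (fun c hc => by simp [hc]) (if_neg hkl) G]
  rw [h1, neg_zero]

end Vale.Agent.P181.O2.H726
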