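import Vale.Agent.P181.O2.H726.PeelS
import Vale.Agent.P181.O2.H244.Lift

set_option autoImplicit false

/-!
# P181, O2, A4: the support count
-/

open MvPolynomial

namespace Vale.Agent.P181.O2.H726

open Vale.Agent.P181.DG6.H887 (lsub lsub_X lsub_deg)
open Vale.Agent.P181.TW.T5 (coeff_kill')
open Vale.Agent.P181.O2.H352 (kl)
open Vale.Agent.P181.O2.H244 (occ)

variable {m : ℕ} {σ : Type} [Fintype σ] [DecidableEq σ]

lemma kl_aeval (K : Finset σ) : (kl m K : MvPolynomial (Fin m × σ) ℂ →ₐ[ℂ] _) =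
    aeval fun p : Fin m × σ => if p.2 ∈ K then (0 : MvPolynomial (Fin m × σ) ℂ) else X p := by
  apply MvPolynomial.algHom_ext
  rintro ⟨i, o⟩
  rw [kl, lsub_X, aeval_X, Finset.sum_eq_single o]
  · by_cases h : o ∈ K <;> simp [h]
  · intro c _ hc
    rw [if_neg (fun h => hc h.1.symm), C_0, zero_mul]
  · intro h
    exact absurd (Finset.mem_univ _) h

lemma coeff_kl (K : Finset σ) (f : MvPolynomial (Fin m × σ) ℂ) (v : Fin m × σ →₀ ℕ)
    (h : ∀ c ∈ K, ∀ i, v (i, c) = 0) : coeff v (kl m K f) = coeff v f := by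
  classical
  rw [kl_aeval, coeff_kill' (fun p : Fin m × σ => p.2 ∈ K), if_pos]
  rintro ⟨i, j⟩ hj
  exact h j hj i

lemma coeff_kl_ne (K : Finset σ) (f : MvPolynomial (Fin m × σ) ℂ) (v : Fin m × σ →₀ ℕ)
    (h : coeff v (kl m K f) ≠ 0) : coeff v f ≠ 0 ∧ ∀ c ∈ K, ∀ i, v (i, c) = 0 := by
  classical
  rw [kl_aeval, coeff_kill' (fun p : Fin m × σ => p.2 ∈ K)] at h
  split_ifs at h with h1
  · exact ⟨h, fun c hc i => h1 (i, c) hc⟩
  · exact absurd rfl h

/-- Two killed sets. -/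
lemma kl_kl (K K' : Finset σ) (f : MvPolynomial (Fin m × σ) ℂ) :
    kl m K (kl m K' f) = kl m (K ∪ K') f := by
  have h : (kl m K).comp (kl m K') = (kl m (K ∪ K') :
      MvPolynomial (Fin m × σ) ℂ →ₐ[ℂ] MvPolynomial (Fin m × σ) ℂ) := by
    apply MvPolynomial.algHom_ext
    rintro ⟨i, o⟩
    rw [AlgHom.comp_apply, kl_aeval, kl_aeval, kl_aeval, aeval_X, aeval_X]
    by_cases h1 : o ∈ K'
    · simp [h1]
    · by_cases h2 : o ∈ K <;> simp [h1, h2]
  exact DFunLike.congr_fun h f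

/-- A permutation which moves `A` away from `K`. -/
lemma exists_perm {M : ℕ} (A K : Finset (Fin M)) (h : A.card + K.card ≤ M) :
    ∃ e : Equiv.Perm (Fin M), ∀ a ∈ A, e a ∉ K := by
  classical
  have h1 : A.card ≤ Kᶜ.card := by
    rw [Finset.card_compl, Fintype.card_fin]
    omega
  obtain ⟨A', hA', hc⟩ := Finset.exists_subset_card_eq h1
  have e0 : {x // x ∈ A} ≃ {x // x ∈ A'} := Finset.equivOfCardEq hc.symm
  refine ⟨e0.extendSubtype, fun a ha hK => ?_⟩
  have h2 : e0.extendSubtype a ∈ A' := e0.extendSubtype_mem a ha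
  exact (Finset.mem_compl.1 (hA' h2)) hK

variable {α : Type} [Fintype α] [DecidableEq α]

/-- **The support count.** -/
theorem supp_zero {M B : ℕ} (K : Finset (α ⊕ Fin M)) (hK : ∀ a : α, Sum.inl a ∉ K)
    (hB : B + K.card ≤ M) {f : MvPolynomial (Fin m × (α ⊕ Fin M)) ℂ}
    (hs : ∀ e : Equiv.Perm (Fin M),
      rename (fun p : Fin m × (α ⊕ Fin M) => (p.1, Sum.map id e p.2)) f = f)
    (hb : ∀ v, coeff v f ≠ 0 → (occ v).card ≤ B) (h0 : kl m K f = 0) : f = 0 := by
  classical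
  by_contra hf
  obtain ⟨v, hv⟩ := MvPolynomial.ne_zero_iff.1 hf
  set K0 : Finset (Fin M) := Finset.univ.filter fun j => (Sum.inr j : α ⊕ Fin M) ∈ K with hK0
  have hcard : K0.card ≤ K.card := by
    refine Finset.card_le_card_of_injOn (fun j => (Sum.inr j : α ⊕ Fin M)) (fun j hj => ?_)
      (fun a _ b _ h => Sum.inr_injective h)
    rw [hK0, Finset.coe_filter] at hj
    exact hj.2
  have hv1 := hb v hv
  obtain ⟨e, he⟩ := exists_perm (occ v) K0 (by omega)
  set φ : Fin m × (α ⊕ Fin M) → Fin m × (α ⊕ Fin M) := fun p => (p.1, Sum.map id e p.2) with hφ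
  have hφi : Function.Injective φ := by
    rintro ⟨i, o⟩ ⟨i', o'⟩ h
    have h1 : i = i' := congrArg Prod.fst h
    have h2 : Sum.map id e o = Sum.map id e o' := congrArg Prod.snd h
    have h3 : o = o' := by
      cases o <;> cases o' <;> simp at h2 ⊢
      · exact h2
      · exact h2
    rw [h1, h3]
  have h1 : coeff (v.mapDomain φ) f = coeff v f := by
    conv_lhs => rw [← hs e]
    exact coeff_rename_mapDomain φ hφi f v
  have h2 : coeff (v.mapDomain φ) (kl m K f) = coeff (v.mapDomain φ) f := by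
    refine coeff_kl K f _ fun c hc i => ?_
    cases c with
    | inl a => exact absurd hc (hK a)
    | inr j =>
      have h3 : (i, (Sum.inr j : α ⊕ Fin M)) = φ (i, Sum.inr (e.symm j)) := by simp [hφ]
      rw [h3, Finsupp.mapDomain_apply hφi]
      by_contra h4
      have h5 : e.symm j ∈ occ v := by
        rw [occ, Finset.mem_filter]
        exact ⟨Finset.mem_univ _, i, h4⟩
      apply he _ h5
      rw [Equiv.apply_symm_apply, hK0, Finset.mem_filter]
      exact ⟨Finset.mem_univ _, hc⟩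
  rw [h0, coeff_zero, h1] at h2
  exact hv h2.symm

/-- Iterating the peel: the columns of `l₁` are set to zero. -/
theorem peel_iter {z v : σ} (hzv : z ≠ v) {x x' D : ℕ} (hx : x = x' + 1) :
    ∀ (l₁ l₂ : List σ) (Q G : MvPolynomial (Fin m × σ) ℂ), (l₁ ++ l₂).Nodup → z ∉ l₁ ++ l₂ →
    v ∉ l₁ ++ l₂ → 1 ≤ l₂.length → (l₁ ++ l₂).length ≤ x' →
    H352.DB z v (l₁ ++ l₂) x 0 D Q → H352.DB z v (l₁ ++ l₂) x' 2 D G →
    H352.RL z v (l₁ ++ l₂) Q G = 0 →
    H352.RL z v l₂ (kl m l₁.toFinset Q) (kl m l₁.toFinset G) = 0 ∧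
      H352.DB z v l₂ x 0 D (kl m l₁.toFinset Q) ∧ H352.DB z v l₂ x' 2 D (kl m l₁.toFinset G) := by
  intro l₁
  induction l₁ with
  | nil =>
    intro l₂ Q G _ _ _ _ _ hQ hG h0
    have h1 : ∀ f : MvPolynomial (Fin m × σ) ℂ, kl m (([] : List σ).toFinset) f = f := by
      intro f
      apply MvPolynomial.ext
      intro u
      exact coeff_kl _ f u (by simp)
    rw [h1, h1]
    exact ⟨h0, hQ, hG⟩
  | cons k l₁ ih =>
    intro l₂ Q G hnd hz hv hl hlen hQ hG h0
    rw [List.cons_append] at hnd hz hv hlen hQ hG h0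
    have hlen' : (l₁ ++ l₂).length + 1 ≤ x' := by
      rw [List.length_cons] at hlen
      exact hlen
    have hp := peelStmt z v k (l₁ ++ l₂) x x' D Q G hzv hnd hz hv (by
      rw [List.length_append]
      omega) hQ hG hx hlen' h0
    have hDB : ∀ {a b : ℕ} {f : MvPolynomial (Fin m × σ) ℂ},
        H352.DB z v (k :: (l₁ ++ l₂)) a b D f → H352.DB z v (l₁ ++ l₂) a b D (kl m {k} f) := by
      intro a b f hf u hu
      obtain ⟨hu1, hu2⟩ := coeff_kl_ne _ f u hu
      obtain ⟨q1, q2, q3, q4⟩ := hf u hu1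
      refine ⟨q1, q2, fun c hc => q3 c (List.mem_cons_of_mem _ hc), fun c hc hcz hcv => ?_⟩
      by_cases hck : c = k
      · subst hck
        exact Finset.sum_eq_zero fun i _ => hu2 c (by simp) i
      · refine q4 c ?_ hcz hcv
        intro h
        rcases List.mem_cons.1 h with h | h
        · exact hck h
        · exact hc h
    have h1 := ih l₂ (kl m {k} Q) (kl m {k} G) (List.nodup_cons.1 hnd).2
      (fun h => hz (List.mem_cons_of_mem _ h)) (fun h => hv (List.mem_cons_of_mem _ h)) hl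
      (by omega) (hDB hQ) (hDB hG) hp
    have h2 : ∀ f : MvPolynomial (Fin m × σ) ℂ,
        kl m l₁.toFinset (kl m {k} f) = kl m (k :: l₁).toFinset f := by
      intro f
      rw [kl_kl, List.toFinset_cons, Finset.union_comm]
      rfl
    rw [h2, h2] at h1
    exact h1

end Vale.Agent.P181.O2.H726
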